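import Vale.Agent.P074.H109.Main

open MeasureTheory Set Metric
open scoped ENNReal NNReal

namespace Vale.Agent.Results.P074.AllWassersteinExponents

open Vale.Agent.P074

/-- `α*_d = 1/3` is attained (the question); for every `1 ≤ p ≤ 2`, every compact convex `K` and
every compact `Y` with nonempty interior the sharp exponent with respect to `W_p` is
`p / (2 (p + 1))`, attained; for every source with bounded density and bounded support the
exponent `1/4` holds with respect to `W_1`, uniformly. -/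
theorem result (d : ℕ) (hd : 2 ≤ d) :
    IsGreatest {α : ℝ | 0 < α ∧ α ≤ 1 ∧ Admissible d α} (1 / 3) ∧
    (∀ p : ℝ, 1 ≤ p → p ≤ 2 → ∀ K Y : Set (E d), IsCompact K → Convex ℝ K →
      (interior K).Nonempty → IsCompact Y →
      (∃ C : ℝ≥0, StabilityEstimate (unif K) Y p (p / (2 * (p + 1))) C) ∧
      ((interior Y).Nonempty → ∀ α : ℝ, 0 ≤ α →
        (∃ C : ℝ≥0, StabilityEstimate (unif K) Y p α C) → α ≤ p / (2 * (p + 1)))) ∧
    (∀ (Λ : ℝ≥0) (R : ℝ) (Y : Set (E d)), IsCompact Y → ∃ C : ℝ≥0, ∀ ρ : Measure (E d),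
      IsProbabilityMeasure ρ → ρ ≤ Λ • volume → ρ (closedBall 0 R)ᶜ = 0 →
        (∀ μ : Measure (E d), IsProbabilityMeasure μ → μ Yᶜ = 0 →
          ∃ T : E d → E d, IsOptimalMap ρ μ T) ∧
        StabilityEstimate ρ Y 1 (1 / 4) C) :=
  H109.main d hd

end Vale.Agent.Results.P074.AllWassersteinExponents
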