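import Vale.Agent.P074.H20.Main

open MeasureTheory Set Metric
open scoped ENNReal NNReal

namespace Vale.Agent.Results.P074.BrenierPotentials

open Vale.Agent.P074 Vale.Agent.P074.H20

/-- For every `d ≥ 2`: (1) `α*_d = 1/3` and the supremum is attained; (2) for the uniform
probability `ρ` on a compact convex `K` with interior points, every target with bounded support
has a Brenier potential, and the Brenier potentials depend on the target in a Lipschitz way, with
a constant independent of the dimension and of the supports: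
`inf_c ‖u_μ - u_ν - c‖_{L²(ρ)} ≤ 41 diam(K) W_2(μ, ν)`. -/
theorem result (d : ℕ) (hd : 2 ≤ d) :
    IsGreatest {α : ℝ | 0 < α ∧ α ≤ 1 ∧ Admissible d α} (1 / 3) ∧
    ∀ K : Set (E d), IsCompact K → Convex ℝ K → (interior K).Nonempty →
      (∀ μ : Measure (E d), IsProbabilityMeasure μ → (∃ M : ℝ, μ (closedBall 0 M)ᶜ = 0) →
        ∃ u : E d → ℝ, IsPotential K μ u) ∧
      (∀ μ ν : Measure (E d), IsProbabilityMeasure μ → IsProbabilityMeasure ν →
        (∃ M : ℝ, μ (closedBall 0 M)ᶜ = 0) → (∃ M : ℝ, ν (closedBall 0 M)ᶜ = 0) →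
        ∀ u v : E d → ℝ, IsPotential K μ u → IsPotential K ν v →
          ∃ c : ℝ, eLpNorm (fun x => u x - v x - c) 2 (unif K) ≤
            ENNReal.ofReal (41 * diam K) * Wass 2 μ ν) :=
  H20.main d hd

end Vale.Agent.Results.P074.BrenierPotentials
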