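import Vale.Agent.P074.H275.Main

open MeasureTheory Set Metric
open scoped ENNReal NNReal

namespace Vale.Agent.Results.P074.LqDiagram

open Vale.Agent.P074

/-- (1) `α*_d = 1/3` is attained (the question).
(2) For `1 ≤ p ≤ 2`, `q ≥ 1`, every compact convex `K` and every compact `Y` with nonempty
interior the best exponent in `‖T_μ - T_ν‖_{L^q(ρ)} ≤ C W_p(μ, ν)^α` is
`min (1/2) (p / (q (p + 1)))`; it is attained for `q ≠ 2 p / (p + 1)` and for `p = 1`, and in
the weak-type sense on the critical line `q = 2 p / (p + 1)`.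
(3) For `p ≥ 2` and `q < 4/3` the best exponent is `1/2`, attained.
(4) For every `p > 0`, `q ≥ 1` and every compact `K` (convex or not) and `Y` with nonempty
interior no exponent above `min (1/2) (p / (q (p + 1)))` is possible.
(5) For every source with bounded density and bounded support the exponent `1 / (2 q)` holds in
`L^q` with respect to `W_1`, uniformly. -/
theorem result (d : ℕ) (hd : 2 ≤ d) :
    IsGreatest {α : ℝ | 0 < α ∧ α ≤ 1 ∧ Admissible d α} (1 / 3) ∧
    (∀ p q : ℝ, 1 ≤ p → p ≤ 2 → 1 ≤ q → ∀ K Y : Set (E d), IsCompact K → Convex ℝ K →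
      (interior K).Nonempty → IsCompact Y →
      (q ≠ 2 * p / (p + 1) ∨ p = 1 →
        ∃ C : ℝ≥0, LqStability (unif K) Y q p (min (1 / 2) (p / (q * (p + 1)))) C) ∧
      (q = 2 * p / (p + 1) → ∃ C : ℝ≥0, WeakLqStability (unif K) Y q p (1 / 2) C) ∧
      ((interior Y).Nonempty →
        IsLUB {α : ℝ | 0 ≤ α ∧ ∃ C : ℝ≥0, LqStability (unif K) Y q p α C}
          (min (1 / 2) (p / (q * (p + 1)))))) ∧
    (∀ p q : ℝ, 2 ≤ p → 1 ≤ q → q < 4 / 3 → ∀ K Y : Set (E d), IsCompact K → Convex ℝ K →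
      (interior K).Nonempty → IsCompact Y → (interior Y).Nonempty →
      IsGreatest {α : ℝ | 0 ≤ α ∧ ∃ C : ℝ≥0, LqStability (unif K) Y q p α C} (1 / 2)) ∧
    (∀ p q : ℝ, 0 < p → 1 ≤ q → ∀ K Y : Set (E d), IsCompact K → (interior K).Nonempty →
      IsCompact Y → (interior Y).Nonempty → ∀ α : ℝ, 0 ≤ α →
        (∃ C : ℝ≥0, LqStability (unif K) Y q p α C) → α ≤ min (1 / 2) (p / (q * (p + 1)))) ∧
    (∀ (Λ : ℝ≥0) (R q : ℝ) (Y : Set (E d)), 1 ≤ q → IsCompact Y → ∃ C : ℝ≥0,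
      ∀ ρ : Measure (E d), IsProbabilityMeasure ρ → ρ ≤ Λ • volume → ρ (closedBall 0 R)ᶜ = 0 →
        (∀ μ : Measure (E d), IsProbabilityMeasure μ → μ Yᶜ = 0 →
          ∃ T : E d → E d, IsOptimalMap ρ μ T) ∧
        LqStability ρ Y q 1 (1 / (2 * q)) C) :=
  H275.main d hd

end Vale.Agent.Results.P074.LqDiagram
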